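import Vale.Agent.P155.SW801.Defs

/-!
# P155, SW, block (5): the statement for one vertical line
-/

namespace Vale.Agent.P155.SW802

open MeasureTheory Filter Topology TopologicalSpace Vale.Agent.P155 Vale.Agent.P155.Q1

/-- **LineDJ**: two different holes of the first carpet, which both meet the line `Re = x0`, have
no common boundary point off this line. -/
def LineDJ : Prop := ∀ Ω : Set ℂ, IsOpen Ω → Bornology.IsBounded Ω → Ω.Nonempty →
  SimplyConnectedSpace Ω → ∀ {Θ : Type} [MeasurableSpace Θ] (P : Measure Θ)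
    (G : ℕ → Θ → NonemptyCompacts ℂ) (ξ : ℕ → ℕ → Θ → ℝ), T211Q.FairCarpets P Ω G ξ →
  ∀ x0 : ℝ, ∀ᵐ x ∂P, ∀ U U', IsHole Ω (G 1 x) U → IsHole Ω (G 1 x) U' → U ≠ U' →
    (∃ z ∈ U, z.re = x0) → (∃ z ∈ U', z.re = x0) → ∀ z ∈ closure U, z ∈ closure U' → z.re = x0

end Vale.Agent.P155.SW802
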