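import Vale.Agent.P155.SW801.Defs
import Vale.Agent.P155.NO801.Y4a
import Vale.Agent.P155.NT814Y.Cut

/-!
# P155, SW, block (6a), (K2): transfer of the laws, existence of fair carpets, the paths
-/

open Set Topology Metric Filter MeasureTheory TopologicalSpace

namespace Vale.Agent.P155.SW802

open Vale.Agent.P155 Vale.Agent.P155.Q1 Vale.Agent.P155.EX Vale.Agent.P155.Uq

/-- two canonical laws agree -/
theorem canon_eq {Ω : Set ℂ} (hΩ : IsOpen Ω) (hb : Bornology.IsBounded Ω) (hne : Ω.Nonempty)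
    {Q Q' : Measure (Sp Ω)} (hQ : Canon Ω Q) (hQ' : Canon Ω Q') : Q = Q' :=
  U613.canon_unique (Xe.existsCpl_of cplLocStmt) extStmt hΩ hb hne hQ hQ'

/-- **(K2a)** transfer of the first level of fair carpets to the canonical space -/
theorem transfer {Ω : Set ℂ} (hΩ : IsOpen Ω) (hb : Bornology.IsBounded Ω) (hne : Ω.Nonempty)
    {Q : Measure (Sp Ω)} (hQ : Canon Ω Q) {Θ : Type} [MeasurableSpace Θ] {P : Measure Θ}
    {G : ℕ → Θ → NonemptyCompacts ℂ} {ξ : ℕ → ℕ → Θ → ℝ} (h : T211Q.FairCarpets P Ω G ξ)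
    {m : ℕ} (χ : Fin m → ℂ → ℝ) (hχ : ∀ i, IsTest Ω (χ i)) :
    Measurable (fun x => (G 1 x, fun i => SWR.hgt Ω G ξ 1 x (χ i))) ∧
    Measurable (fun s : Sp Ω => ((s 1).1, fun i => pr (s 1).2 (χ i))) ∧
    P.map (fun x => (G 1 x, fun i => SWR.hgt Ω G ξ 1 x (χ i))) =
      Q.map (fun s : Sp Ω => ((s 1).1, fun i => pr (s 1).2 (χ i))) := by
  have hP := h.prob
  have hQp := hQ.prob
  have m1 : Measurable (fun x => (G 1 x, fun i => SWR.hgt Ω G ξ 1 x (χ i))) :=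
    (h.mG 1).prodMk (measurable_pi_lambda _ fun i => ((h.sc.meas 1).2 (χ i) (hχ i)).1)
  have m2 : Measurable (fun s : Sp Ω => ((s 1).1, fun i => pr (s 1).2 (χ i))) :=
    (measurable_fst.comp (measurable_pi_apply 1)).prodMk (measurable_pi_lambda _ fun i =>
      (U613.measurable_pr (hχ i)).comp (measurable_snd.comp (measurable_pi_apply 1)))
  refine ⟨m1, m2, ?_⟩
  obtain ⟨Q', hQ', hint⟩ := U613.canonStmt Ω hΩ hb hne P G _ h.sc
  have e := canon_eq hΩ hb hne hQ' hQ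
  subst e
  have := Measure.isProbabilityMeasure_map (μ := P) m1.aemeasurable
  have := Measure.isProbabilityMeasure_map (μ := Q') m2.aemeasurable
  refine ext_of_forall_integral_eq_of_IsFiniteMeasure fun F => ?_
  rw [integral_map m1.aemeasurable F.continuous.measurable.aestronglyMeasurable,
    integral_map m2.aemeasurable F.continuous.measurable.aestronglyMeasurable]
  have hc : Continuous fun y : (Fin 2 → NonemptyCompacts ℂ) × (Fin 2 → Fin m → ℝ) =>
      F (y.1 1, fun i => y.2 1 i) := by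
    refine F.continuous.comp (Continuous.prodMk ?_ ?_)
    · exact (continuous_apply 1).comp continuous_fst
    · exact (continuous_apply 1).comp continuous_snd
  exact hint 2 m χ hχ (fun y => F (y.1 1, fun i => y.2 1 i)) hc
    ⟨‖F‖, fun y => F.norm_coe_le_norm _⟩

/-- **(K2b)** existence of fair carpets -/
theorem exists_fair {Ω : Set ℂ} (ho : IsOpen Ω) (hb : Bornology.IsBounded Ω) (hne : Ω.Nonempty)
    (hsc : SimplyConnectedSpace Ω) :
    ∃ (Θ : Type) (_ : MeasurableSpace Θ) (P : Measure Θ) (G : ℕ → Θ → NonemptyCompacts ℂ)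
      (ξ : ℕ → ℕ → Θ → ℝ), T211Q.FairCarpets P Ω G ξ := by
  obtain ⟨S⟩ := EXA.exists_approx Ω ho hb hne hsc
  exact Ex795.fair_of QQ.full ho hb hne hsc S
    (samep_of NO801.Y.pin_bdt.1 NO801.Y.pin_bdt.2 ho hb hne hsc S)

section

variable {Ω : Set ℂ} {Q : Measure (Sp Ω)}

theorem carp_canon (ho : IsOpen Ω) (hb : Bornology.IsBounded Ω) (hQ : Canon Ω Q) :
    IsSignedCarpets Q Ω (fun k t => NT814Y.cut Ω (t k).1) (fun k t φ => pr (t k).2 φ) := by
  have hp := hQ.prob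
  have hfc : IsConnected (frontier Ω) := by
    obtain ⟨s, h1, h2⟩ := (hQ.zero.and hQ.conn).exists
    rw [← h1.1]
    exact h2 0
  exact NT814Y.carp_cut ⟨ho, hb, ho, Subset.rfl, by simp, hfc⟩ hQ

/-- fair carpets on an extension of the canonical space -/
theorem fair_canon (ho : IsOpen Ω) (hb : Bornology.IsBounded Ω) (hne : Ω.Nonempty)
    (hsc : SimplyConnectedSpace Ω) (hQ : Canon Ω Q) :
    ∃ (Fr : NonemptyCompacts ℂ) (ξ : ℕ → ℕ → Sp Ω × (ℕ × ℕ → Bool) → ℝ),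
      (Fr : Set ℂ) = frontier Ω ∧ (∀ᵐ s ∂Q, ∀ k, (s k).1 ⊔ Fr = (s k).1) ∧
      T211Q.FairCarpets (Q.prod (Ex795.coins (ℕ × ℕ))) Ω (fun k y => (y.1 k).1 ⊔ Fr) ξ := by
  have hp := hQ.prob
  obtain ⟨s0, hs0⟩ := hQ.zero.exists
  set Fr : NonemptyCompacts ℂ := (s0 0).1 with hFr
  have hFrΩ : (Fr : Set ℂ) = frontier Ω := hs0.1
  have hsub : ∀ᵐ s ∂Q, ∀ k, (s k).1 ⊔ Fr = (s k).1 := by
    filter_upwards [NT814Y.canon_fr hQ] with s hs k
    apply NonemptyCompacts.ext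
    rw [NonemptyCompacts.coe_sup, hFrΩ]
    exact union_eq_self_of_subset_right (hs k)
  have hcut : ∀ᵐ s ∂Q, ∀ k, (s k).1 ⊔ Fr = NT814Y.cut Ω (s k).1 := by
    filter_upwards [hsub, hQ.mono] with s hs hm k
    rw [hs k]
    apply NonemptyCompacts.ext
    have h1 : ((s k).1 : Set ℂ) ∩ closure Ω = (s k).1 := inter_eq_self_of_subset_left (hm k).2
    rw [NT814Y.coe_cut (by rw [h1]; exact (s k).1.nonempty), h1]
  have mG : ∀ k, @Measurable _ _ _ (borel (NonemptyCompacts ℂ))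
      (fun s : Sp Ω => (s k).1 ⊔ Fr) := fun k =>
    Ex795.meas_sup (measurable_fst.comp (measurable_pi_apply k)) Fr
  have sc := Ex795.sc_congr (carp_canon ho hb hQ) (G' := fun k s => (s k).1 ⊔ Fr)
    (H' := fun k t φ => pr (t k).2 φ) hcut (Eventually.of_forall fun x k φ _ => rfl)
    fun k => ⟨mG k, fun φ hφ => ⟨(U613.measurable_pr hφ).comp
      (measurable_snd.comp (measurable_pi_apply k)), (U.measurable_green hb hφ).comp (mG k)⟩⟩
  have hfr : ∀ k (s : Sp Ω), frontier Ω ⊆ (((s k).1 ⊔ Fr : NonemptyCompacts ℂ) : Set ℂ) := by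
    intro k s
    rw [NonemptyCompacts.coe_sup, hFrΩ]
    exact subset_union_right
  obtain ⟨S⟩ := EXA.exists_approx Ω ho hb hne hsc
  have hconv := (QQ.full Ω ho hb hne hsc S).2 _ _ Q _ _ hp sc
  have hS := samep_of NO801.Y.pin_bdt.1 NO801.Y.pin_bdt.2 ho hb hne hsc S
  exact ⟨Fr, _, hFrΩ, hsub, Ex795.fair_of_sc ho hb sc hfr hconv hS⟩

/-- **(K2c)** the almost sure properties of the canonical carpets -/
theorem path_ae (hDJ : SWR.DJ) (ho : IsOpen Ω) (hb : Bornology.IsBounded Ω) (hne : Ω.Nonempty)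
    (hsc : SimplyConnectedSpace Ω) (hQ : Canon Ω Q) : ∀ᵐ s ∂Q, SWR.Path Ω s := by
  have hp := hQ.prob
  obtain ⟨Fr, ξ, hFr, hsub, hfair⟩ := fair_canon ho hb hne hsc hQ
  obtain ⟨S⟩ := EXA.exists_approx Ω ho hb hne hsc
  have h1 := (pass_of_fair QQ.full QQ.tight.1 QQ.tight.2.1 QQ.tight.2.2 NO801.Y.pin_bdt.1
    NO801.Y.pin_bdt.2 jord ho hb hne hsc S hfair).2
  have h2 := hDJ Ω ho hb hne hsc _ _ _ hfair
  have h3 : ∀ᵐ s ∂Q, SWR.Nice1 Ω ((s 1).1 ⊔ Fr : NonemptyCompacts ℂ) := by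
    filter_upwards [Measure.ae_ae_of_ae_prod (h1.and h2)] with s hs
    obtain ⟨c, ⟨n, ω, hpre⟩, hdj⟩ := hs.exists
    have hHL := holeLoops_of_pre jord hpre
    refine ⟨fun U hU => ?_, fun ε hε => ?_, fun U U' hU hU' hne2 => hdj U U' hU hU' hne2⟩
    · have h4 := hHL.inside 1 U le_rfl hU
      rw [closure_eq_self_union_frontier]
      refine union_subset ?_ h4
      obtain ⟨z, -, rfl⟩ := hU
      exact (connectedComponentIn_subset _ _).trans sdiff_subset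
    · refine ((hHL.fin ε hε).image Prod.snd).subset ?_
      rintro U ⟨hU, hd⟩
      exact ⟨(1, U), ⟨le_rfl, hU, hd⟩, rfl⟩
  filter_upwards [hQ.zero, hQ.bdd, hQ.mono, hQ.conn, hQ.null, hQ.sign, h3, hsub] with
    s a1 a2 a3 a4 a5 a6 a7 a8
  refine ⟨a1, a2, a3, a4, a5, a6, ?_⟩
  rw [a8 1] at a7
  exact a7

end

end Vale.Agent.P155.SW802
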