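import Vale.Agent.P155.SW276.Defs
import Vale.Agent.P155.H878.Off
import Vale.Agent.P155.EX.Asm
import Vale.Agent.P155.SW802.Defs

/-!
# P155, SW, block (5): the statement for one line, along a good sequence
-/

open Set Topology Metric Filter MeasureTheory TopologicalSpace

namespace Vale.Agent.P155.SW802

open Vale.Agent.P155 Vale.Agent.P155.Q1 Vale.Agent.P155.EX Vale.Agent.P155.SW276

/-- a loop which surrounds a face has a vertex on every column of the face -/
theorem vert_col {V : Finset Pt} {ω : Conf} (hω : ω ∈ DD V) {L : Set Pt} (hL : L ∈ Loops ω)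
    {f : Pt} (hf : surr ω L f) : ∃ y, (f.1, y) ∈ L := by
  by_contra hn
  push Not at hn
  -- all faces of the column are surrounded
  have step : ∀ m : ℕ, surr ω L (f.1, f.2 + m) := by
    intro m
    induction m with
    | zero => simpa using hf
    | succ m ih =>
      have hv := hn (f.2 + (m + 1 : ℕ))
      have h1 := A1.surr_corner hω hL hv (F := (f.1, f.2 + m))
        ⟨Or.inl rfl, Or.inr (by push_cast; ring)⟩
      exact h1.1 ih
  have hfin := P155.L.intr_finite hω hL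
  have hinj : Function.Injective fun m : ℕ => ((f.1, f.2 + m) : Pt) := by
    intro m m' h
    simp only [Prod.mk.injEq, true_and] at h
    omega
  exact (Set.infinite_of_injective_forall_mem hinj fun m => step m) hfin

/-- a vertex of the loop near the segment from a surrounded point to one which is not -/
theorem near_seg {V : Finset Pt} {δ : ℝ} {a : ℂ} {ω : Conf} (hδ : 0 < δ) (hω : ω ∈ DD V)
    {L : Set Pt} (hL : L ∈ Loops ω) {z w : ℂ} (hz : surrZ δ a ω L z) (hw : ¬ surrZ δ a ω L w) :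
    ∃ p ∈ segment ℝ z w, ∃ v ∈ L, dist p (pt δ a v) ≤ 2 * δ := by
  by_contra hn
  push Not at hn
  exact hw (surrZ_conn hδ hω hL (convex_segment z w).isPreconnected hn
    (left_mem_segment ℝ z w) (right_mem_segment ℝ z w) hz)

/-- **the deterministic lemma** -/
theorem line_det {Ω : Set ℂ} {S : TempApprox Ω} {n : ℕ → ℕ} {ω : ℕ → Conf}
    {G : ℕ → NonemptyCompacts ℂ} (h : Good Ω S n ω G) {x0 : ℝ}
    (hsep : ∀ ρ : ℝ, 0 < ρ → ∃ η : ℝ, 0 < η ∧ ∀ᶠ j in atTop, ¬ Near2 S (n j) x0 ρ η (ω j))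
    {U U' : Set ℂ} (hU : IsHole Ω (G 1) U) (hU' : IsHole Ω (G 1) U') (hne : U ≠ U')
    (hx : ∃ z ∈ U, z.re = x0) (hx' : ∃ z ∈ U', z.re = x0) {z : ℂ} (hz : z ∈ closure U)
    (hz' : z ∈ closure U') : z.re = x0 := by
  by_contra hzx
  obtain ⟨c, hcU, hc⟩ := hx
  obtain ⟨c', hcU', hc'⟩ := hx'
  set ρ : ℝ := |z.re - x0| / 2 with hρ
  have hρ0 : 0 < ρ := by
    have : 0 < |z.re - x0| := abs_pos.2 (sub_ne_zero.2 hzx)
    positivity
  obtain ⟨η, hη, hev⟩ := hsep ρ hρ0
  set μ : ℝ := min η ρ with hμ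
  have hμ0 : 0 < μ := lt_min hη hρ0
  obtain ⟨u, huU, hu⟩ := Metric.mem_closure_iff.1 hz (μ / 4) (by positivity)
  obtain ⟨u', huU', hu'⟩ := Metric.mem_closure_iff.1 hz' (μ / 4) (by positivity)
  have hUe : ∀ w ∈ U, w ∈ Ω \ (G 1 : Set ℂ) ∧ U = connectedComponentIn (Ω \ (G 1 : Set ℂ)) w := by
    obtain ⟨w0, hw0, rfl⟩ := hU
    exact fun w hw => ⟨connectedComponentIn_subset _ _ hw, connectedComponentIn_eq hw⟩
  have hUe' : ∀ w ∈ U', w ∈ Ω \ (G 1 : Set ℂ) ∧
      U' = connectedComponentIn (Ω \ (G 1 : Set ℂ)) w := by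
    obtain ⟨w0, hw0, rfl⟩ := hU'
    exact fun w hw => ⟨connectedComponentIn_subset _ _ hw, connectedComponentIn_eq hw⟩
  have hnecc : connectedComponentIn (Ω \ (G 1 : Set ℂ)) u ≠
      connectedComponentIn (Ω \ (G 1 : Set ℂ)) u' := by
    rw [← (hUe u huU).2, ← (hUe' u' huU').2]
    exact hne
  have e1 := exi Ω S n ω G h 1 le_rfl c (hUe c hcU).1
  have e2 := exi Ω S n ω G h 1 le_rfl c' (hUe' c' hcU').1
  have s1 := scc Ω S n ω G h 1 le_rfl c (hUe c hcU).1 u (by rw [← (hUe c hcU).2]; exact huU)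
  have s2 := scc Ω S n ω G h 1 le_rfl c' (hUe' c' hcU').1 u'
    (by rw [← (hUe' c' hcU').2]; exact huU')
  have s3 := h.same 1 le_rfl u u' (hUe u huU).1 (hUe' u' huU').1 hnecc
  have hmesh : ∀ᶠ j in atTop, S.δ (n j) < μ / 8 :=
    (S.mesh.comp h.lim).eventually (gt_mem_nhds (show (0 : ℝ) < μ / 8 by positivity))
  obtain ⟨j, hj, ⟨v, hv, hlv, hsv⟩, ⟨v', hv', hlv', hsv'⟩, hs1, hs2, hs3, hδ'⟩ :=
    (hev.and (e1.and (e2.and (s1.and (s2.and (s3.and hmesh)))))).exists
  have hδ := S.pos (n j)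
  set δ := S.δ (n j) with hδd
  set a := S.a (n j) with had
  have hω := h.mem j
  have hL := comp_mem_Loops hv
  have hL' := comp_mem_Loops hv'
  have hvu : surrZ δ a (ω j) (comp (ω j) v) u := hs1 _ hL hlv hsv
  have hvu' : surrZ δ a (ω j) (comp (ω j) v') u' := hs2 _ hL' hlv' hsv'
  have hn1 : ¬ surrZ δ a (ω j) (comp (ω j) v) u' := fun hh => hs3 ⟨_, hL, hlv, hvu, hh⟩
  have hn2 : ¬ surrZ δ a (ω j) (comp (ω j) v') u := fun hh => hs3 ⟨_, hL', hlv', hh, hvu'⟩
  have hcne : comp (ω j) v ≠ comp (ω j) v' := fun e => hn2 (by rw [← e]; exact hvu)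
  obtain ⟨p, hp, x, hxL, hpx⟩ := near_seg hδ hω hL hvu hn1
  obtain ⟨p', hp', x', hxL', hpx'⟩ := near_seg hδ hω hL' hvu' hn2
  -- the segments lie in the ball
  have hball : ∀ w ∈ segment ℝ u u', dist w z ≤ μ / 4 := by
    intro w hw
    have h1 : segment ℝ u u' ⊆ closedBall z (μ / 4) :=
      (convex_closedBall z (μ / 4)).segment_subset
        (by rw [mem_closedBall, dist_comm]; exact hu.le)
        (by rw [mem_closedBall, dist_comm]; exact hu'.le)
    exact h1 hw
  have hp'2 : p' ∈ segment ℝ u u' := by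
    rw [segment_symm]
    exact hp'
  have hxz : dist (pt δ a x) z ≤ μ / 2 := by
    have h1 := dist_triangle_left (pt δ a x) z p
    have h2 := hball p hp
    linarith
  have hxz' : dist (pt δ a x') z ≤ μ / 2 := by
    have h1 := dist_triangle_left (pt δ a x') z p'
    have h2 := hball p' hp'2
    linarith
  have hcx := P155.L.comp_eq_of_mem hω hxL
  have hcx' := P155.L.comp_eq_of_mem hω hxL'
  have hcol : ∀ w : ℂ, w.re = x0 → (K.cell δ a w).1 = col δ a x0 := by
    intro w hw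
    unfold K.cell col
    rw [hw]
  apply hj
  refine ⟨x, x', P155.L.ne_of_mem_comp hω hv hxL, P155.L.ne_of_mem_comp hω hv' hxL', ?_, ?_, ?_,
    ?_, ?_⟩
  · rw [hcx, hcx']
    exact hcne
  · have h1 : |(pt δ a x).re - z.re| ≤ μ / 2 := by
      have := Complex.abs_re_le_norm (pt δ a x - z)
      rw [Complex.sub_re] at this
      exact this.trans (by rw [← dist_eq_norm]; exact hxz)
    have h2 : μ ≤ ρ := min_le_right _ _
    have h3 : |z.re - x0| = 2 * ρ := by
      rw [hρ]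
      ring
    have h4 : |z.re - x0| ≤ |(pt δ a x).re - z.re| + |(pt δ a x).re - x0| := by
      have e : z.re - x0 = ((pt δ a x).re - x0) - ((pt δ a x).re - z.re) := by ring
      rw [e]
      have := abs_sub ((pt δ a x).re - x0) ((pt δ a x).re - z.re)
      linarith
    linarith
  · have h1 := dist_triangle_right (pt δ a x) (pt δ a x') z
    have h2 : μ ≤ η := min_le_left _ _
    linarith
  · rw [hcx]
    obtain ⟨y, hy⟩ := vert_col hω hL hsv
    rw [hcol c hc] at hy
    exact ⟨y, hy⟩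
  · rw [hcx']
    obtain ⟨y, hy⟩ := vert_col hω hL' hsv'
    rw [hcol c' hc'] at hy
    exact ⟨y, hy⟩

end Vale.Agent.P155.SW802
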