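import Vale.Agent.P155.SW802.Defs
import Vale.Agent.P155.CI.Main

/-!
# P155, SW, block (5): from one vertical line to all of them, by rotations
-/

open Set Topology Metric Filter MeasureTheory TopologicalSpace

namespace Vale.Agent.P155.SW802

open Vale.Agent.P155 Vale.Agent.P155.Q1 Vale.Agent.P155.CI Vale.Agent.P155.EX

/-- the image carpets are fair carpets -/
theorem fair_img (hPIN : PIN) (hBDT : BDT) {Ω Ω' : Set ℂ}
    (hb : Bornology.IsBounded Ω) (hne : Ω.Nonempty)
    (hb' : Bornology.IsBounded Ω') (hne' : Ω'.Nonempty) (hsc' : SimplyConnectedSpace Ω')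
    (hfc : IsConnected (frontier Ω'))
    {f g : ℂ → ℂ} (h : CI.Conf Ω Ω' f g) {Θ : Type} [MeasurableSpace Θ] {P : Measure Θ}
    {G : ℕ → Θ → NonemptyCompacts ℂ} {ξ : ℕ → ℕ → Θ → ℝ} (hfair : T211Q.FairCarpets P Ω G ξ) :
    ∃ (ξ' : ℕ → ℕ → Θ × (ℕ × ℕ → Bool) → ℝ),
      T211Q.FairCarpets (P.prod (Ex795.coins (ℕ × ℕ))) Ω'
        (fun k y => imgN h hb' hfc.nonempty (G k y.1)) ξ' := by
  have hP := hfair.prob
  have hfr : (frontier Ω').Nonempty := hfc.nonempty
  have sc' := carp h (ana Ω Ω' f g h) hb hne hb' hfr hfc hfair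
  obtain ⟨S'⟩ := EXA.exists_approx Ω' h.ho' hb' hne' hsc'
  have hconv := (QQ.full Ω' h.ho' hb' hne' hsc' S').2 Θ _ P _ _ hP sc'
  have hS := samep_of hPIN hBDT h.ho' hb' hne' hsc' S'
  exact ⟨_, Ex795.fair_of_sc h.ho' hb' sc'
    (fun k x => by rw [coe_imgN]; exact frontier_sub_img g _) hconv hS⟩

/-- the multiplication by `c ≠ 0` as a conformal isomorphism -/
theorem conf_mul {Ω : Set ℂ} (ho : IsOpen Ω) {c : ℂ} (hc : c ≠ 0) :
    CI.Conf Ω ((fun z => c * z) '' Ω) (fun z => c * z) (fun w => c⁻¹ * w) where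
  ho := ho
  ho' := (Homeomorph.mulLeft₀ c hc).isOpenMap Ω ho
  df := (differentiable_id.const_mul c).differentiableOn
  dg := (differentiable_id.const_mul c⁻¹).differentiableOn
  mf := mapsTo_image _ _
  mg := by
    rintro _ ⟨z, hz, rfl⟩
    simpa [← mul_assoc, inv_mul_cancel₀ hc] using hz
  gf := fun z _ => by simp [← mul_assoc, inv_mul_cancel₀ hc]
  fg := fun w _ => by simp [← mul_assoc, mul_inv_cancel₀ hc]

/-- the statement for a line in any direction, in the given domain -/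
theorem line_rot (hPIN : PIN) (hBDT : BDT) (hL : LineDJ) {Ω : Set ℂ} (ho : IsOpen Ω)
    (hb : Bornology.IsBounded Ω) (hne : Ω.Nonempty) (hsc : SimplyConnectedSpace Ω)
    {Θ : Type} [MeasurableSpace Θ] {P : Measure Θ}
    {G : ℕ → Θ → NonemptyCompacts ℂ} {ξ : ℕ → ℕ → Θ → ℝ} (hfair : T211Q.FairCarpets P Ω G ξ)
    {c : ℂ} (hc : c ≠ 0) (x0 : ℝ) :
    ∀ᵐ x ∂P, ∀ U U', IsHole Ω (G 1 x) U → IsHole Ω (G 1 x) U' → U ≠ U' →
      (∃ z ∈ U, (c * z).re = x0) → (∃ z ∈ U', (c * z).re = x0) →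
      ∀ z ∈ closure U, z ∈ closure U' → (c * z).re = x0 := by
  have hP := hfair.prob
  have h := conf_mul ho hc
  set Ω' : Set ℂ := (fun z => c * z) '' Ω with hΩ'
  have hcf : Continuous fun z : ℂ => c * z := continuous_const.mul continuous_id
  have hb' : Bornology.IsBounded Ω' := by
    have h1 : Bornology.IsBounded ((fun z => c * z) '' closure Ω) :=
      (hb.isCompact_closure.image hcf).isBounded
    exact h1.subset (image_mono subset_closure)
  have hne' : Ω'.Nonempty := hne.image _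
  have hsc' : SimplyConnectedSpace Ω' := by
    have e : Ω ≃ₜ Ω' := (Homeomorph.mulLeft₀ c hc).image Ω
    exact e.symm.toHomotopyEquiv.simplyConnectedSpace
  have hfc0 : IsConnected (frontier Ω) := by
    obtain ⟨x, h1, h2⟩ := (hfair.sc.zero.and hfair.sc.conn).exists
    rw [← h1.1]
    exact h2 0
  have hfc : IsConnected (frontier Ω') := by
    have h1 : frontier Ω' = (fun z => c * z) '' frontier Ω :=
      ((Homeomorph.mulLeft₀ c hc).image_frontier Ω).symm
    rw [h1]
    exact hfc0.image _ hcf.continuousOn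
  obtain ⟨ξ', hfair'⟩ := fair_img hPIN hBDT hb hne hb' hne' hsc' hfc h hfair
  have key := hL Ω' h.ho' hb' hne' hsc' _ _ _ hfair' x0
  have key2 := Measure.ae_ae_of_ae_prod key
  filter_upwards [key2] with x hx
  obtain ⟨b, hb2⟩ := hx.exists
  intro U U' hU hU' hne2 hzU hzU' z hz hz'
  have hr : Holes.Rel Ω (fun z => c * z) (G 1 x : Set ℂ)
      (imgN h hb' hfc.nonempty (G 1 x) : Set ℂ) := by
    rw [coe_imgN]
    exact Holes.rel_img h _
  have h1 := Holes.isHole_image h hr hU
  have h2 := Holes.isHole_image h hr hU'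
  have hinj : Function.Injective fun z : ℂ => c * z := mul_right_injective₀ hc
  have h3 : (fun z => c * z) '' U ≠ (fun z => c * z) '' U' := fun e =>
    hne2 (hinj.image_injective e)
  have hcl : ∀ V : Set ℂ, z ∈ closure V → c * z ∈ closure ((fun z => c * z) '' V) := fun V hV =>
    image_closure_subset_closure_image hcf ⟨z, hV, rfl⟩
  obtain ⟨u, hu, hu2⟩ := hzU
  obtain ⟨u', hu', hu2'⟩ := hzU'
  exact hb2 _ _ h1 h2 h3 ⟨c * u, ⟨u, hu, rfl⟩, hu2⟩ ⟨c * u', ⟨u', hu', rfl⟩, hu2'⟩ (c * z)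
    (hcl U hz) (hcl U' hz')

/-- the normal of the line through `a` and `b` -/
noncomputable def nrm (a b : ℂ) : ℂ := Complex.I * (starRingEnd ℂ) (b - a)

theorem nrm_ne {a b : ℂ} (h : a ≠ b) : nrm a b ≠ 0 := by
  unfold nrm
  refine mul_ne_zero Complex.I_ne_zero ?_
  rw [Ne, map_eq_zero, sub_eq_zero]
  exact h.symm

theorem nrm_re (a b : ℂ) : (nrm a b * a).re = (nrm a b * b).re := by
  simp only [nrm, Complex.mul_re, Complex.mul_im, Complex.I_re, Complex.I_im, Complex.conj_re,
    Complex.conj_im, Complex.sub_re, Complex.sub_im]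
  ring

/-- **DJ from the statement for one vertical line** -/
theorem dj_of_line (hPIN : PIN) (hBDT : BDT) (hL : LineDJ) : SWR.DJ := by
  intro Ω ho hb hne hsc Θ mΘ P G ξ hfair
  obtain ⟨D, hDc, hDd⟩ := exists_countable_dense ℂ
  have : Countable D := hDc.to_subtype
  have hall : ∀ᵐ x ∂P, ∀ a b : D, (a : ℂ) ≠ b → ∀ U U', IsHole Ω (G 1 x) U →
      IsHole Ω (G 1 x) U' → U ≠ U' →
      (∃ z ∈ U, (nrm a b * z).re = (nrm a b * a).re) →
      (∃ z ∈ U', (nrm a b * z).re = (nrm a b * a).re) →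
      ∀ z ∈ closure U, z ∈ closure U' → (nrm a b * z).re = (nrm a b * a).re := by
    rw [ae_all_iff]
    intro a
    rw [ae_all_iff]
    intro b
    by_cases hab : (a : ℂ) = b
    · exact Eventually.of_forall fun x h => absurd hab h
    · filter_upwards [line_rot hPIN hBDT hL ho hb hne hsc hfair (nrm_ne hab)
        (nrm a b * a).re] with x hx _
      exact hx
  filter_upwards [hall] with x hx U U' hU hU' hne2
  have hGc : IsClosed (G 1 x : Set ℂ) := (G 1 x).isCompact.isClosed
  have hUo : IsOpen U := Holes.hole_open ho hGc hU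
  have hUo' : IsOpen U' := Holes.hole_open ho hGc hU'
  have hdis : Disjoint U U' := by
    obtain ⟨z, hz, rfl⟩ := hU
    obtain ⟨z', hz', rfl⟩ := hU'
    by_contra hn
    rw [not_disjoint_iff] at hn
    obtain ⟨w, hw, hw'⟩ := hn
    exact hne2 ((connectedComponentIn_eq hw).trans (connectedComponentIn_eq hw').symm)
  rw [disjoint_left]
  intro z hz hz'
  have hzU : z ∉ U := fun hzU => by
    obtain ⟨w, hw, hw'⟩ := mem_closure_iff.1 hz' U hUo hzU
    exact disjoint_left.1 hdis hw hw'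
  have hneU : U.Nonempty := by
    obtain ⟨w, hw, rfl⟩ := hU
    exact ⟨w, mem_connectedComponentIn hw⟩
  have hneU' : U'.Nonempty := by
    obtain ⟨w, hw, rfl⟩ := hU'
    exact ⟨w, mem_connectedComponentIn hw⟩
  obtain ⟨a, haD, haU⟩ := hDd.exists_mem_open hUo hneU
  have haz : a ≠ z := fun e => hzU (e ▸ haU)
  -- an open subset of `U'` of points `b` such that `z` is off the line `ab`
  have hopen : IsOpen (U' ∩ {b | (nrm a b * (z - a)).re ≠ 0}) := by
    refine hUo'.inter (isOpen_ne_fun ?_ continuous_const)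
    unfold nrm
    fun_prop
  have hnon : (U' ∩ {b | (nrm a b * (z - a)).re ≠ 0}).Nonempty := by
    obtain ⟨b, hb1⟩ := hneU'
    by_cases h0 : (nrm a b * (z - a)).re = 0
    · have hlim : Tendsto (fun t : ℝ => b + t * (Complex.I * (z - a))) (𝓝[≠] 0) (𝓝 b) := by
        have h1 : Tendsto (fun t : ℝ => b + t * (Complex.I * (z - a))) (𝓝 0)
            (𝓝 (b + (0 : ℝ) * (Complex.I * (z - a)))) := by
          refine Continuous.tendsto ?_ 0
          fun_prop
        simp only [Complex.ofReal_zero, zero_mul, add_zero] at h1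
        exact h1.mono_left nhdsWithin_le_nhds
      have h2 : ∀ᶠ t : ℝ in 𝓝[≠] 0, b + t * (Complex.I * (z - a)) ∈ U' :=
        hlim.eventually (hUo'.mem_nhds hb1)
      obtain ⟨t, ht, ht0⟩ := (h2.and (eventually_mem_nhdsWithin)).exists
      refine ⟨_, ht, ?_⟩
      have ht0' : t ≠ 0 := ht0
      have e : (nrm a (b + t * (Complex.I * (z - a))) * (z - a)).re =
          (nrm a b * (z - a)).re + t * Complex.normSq (z - a) := by
        simp only [nrm, Complex.mul_re, Complex.mul_im, Complex.I_re, Complex.I_im,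
          Complex.conj_re, Complex.conj_im, Complex.sub_re, Complex.sub_im, Complex.add_re,
          Complex.add_im, Complex.ofReal_re, Complex.ofReal_im, Complex.normSq_apply]
        ring
      show (nrm a (b + t * (Complex.I * (z - a))) * (z - a)).re ≠ 0
      rw [e, h0, zero_add]
      refine mul_ne_zero ht0' ?_
      rw [Ne, Complex.normSq_eq_zero, sub_eq_zero]
      exact haz.symm
    · exact ⟨b, hb1, h0⟩
  obtain ⟨b, hbD, hbU, hb0⟩ := hDd.exists_mem_open hopen hnon
  have hab : a ≠ b := fun e => disjoint_left.1 hdis haU (e ▸ hbU)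
  have h1 := hx ⟨a, haD⟩ ⟨b, hbD⟩ hab U U' hU hU' hne2 ⟨a, haU, rfl⟩ ⟨b, hbU, (nrm_re a b).symm⟩
    z hz hz'
  apply hb0
  simp only at h1
  rw [mul_sub, Complex.sub_re, h1, sub_self]

end Vale.Agent.P155.SW802
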