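import Vale.Agent.P155.SW802.Line
import Vale.Agent.P155.SW276.Net
import Vale.Agent.P155.SW904.Two
import Vale.Agent.P155.SW802.Rot
import Vale.Agent.P155.NO801.Y4a

/-!
# P155, SW, block (5): passage to the limit
-/

open Set Topology Metric Filter MeasureTheory TopologicalSpace

namespace Vale.Agent.P155.SW802

open Vale.Agent.P155 Vale.Agent.P155.Q1 Vale.Agent.P155.EX Vale.Agent.P155.SW276

theorem near2_mono {Ω : Set ℂ} {S : TempApprox Ω} {n : ℕ} {x0 ρ ρ' η η' : ℝ} {ω : Conf}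
    (h : Near2 S n x0 ρ η ω) (hρ : ρ' ≤ ρ) (hη : η ≤ η') : Near2 S n x0 ρ' η' ω := by
  obtain ⟨v, w, a1, a2, a3, a4, a5, a6⟩ := h
  exact ⟨v, w, a1, a2, a3, hρ.trans a4, a5.trans hη, a6⟩

/-- the new condition -/
def CdSep {Ω : Set ℂ} (S : TempApprox Ω) (x0 : ℝ) (m0 : ℕ) (c n : ℕ) (ω : Conf) : Prop :=
  ¬ Near2 S n x0 (1 / ((m0 : ℝ) + 1)) (1 / ((c : ℝ) + 1)) ω

/-- all conditions -/
def CdY {Ω : Set ℂ} (S : TempApprox Ω) (x0 : ℝ) :
    (Q1.CI ⊕ (ℕ × ℕ) ⊕ ℕ) ⊕ ℕ → ℕ → ℕ → Conf → Prop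
  | .inl i => CdX Ω S i
  | .inr m0 => CdSep S x0 m0

open scoped PiCountable in
/-- **LineDJ from SEP2** -/
theorem line_of_sep (hPIN : PIN) (hBDT : BDT) (hSEP : SEP2) : LineDJ := by
  intro Ω ho hb hne hsc Θ mΘ P G ξ h x0
  have hP := h.prob
  obtain ⟨S⟩ := EXA.exists_approx Ω ho hb hne hsc
  obtain ⟨hmeas, hlim, -⟩ := gaskets QQ.full ho hb hne hsc S h
  have key : ∀ᵐ x ∂P, ∃ (n : ℕ → ℕ) (ω : ℕ → Conf), Tendsto n atTop atTop ∧
        (∀ j, ω j ∈ DD (S.T (n j)).V) ∧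
        (∀ i, ∃ c, ∀ᶠ j in atTop, CdY S x0 i c (n j) (ω j)) ∧
        Tendsto (fun j => (fun l => toNC (gasket (S.δ (n j)) (S.a (n j)) (S.T (n j)) l (ω j))))
          atTop (𝓝 (fun l => G l x)) := by
    refine (pass_countable' P (E := ℕ → NonemptyCompacts ℂ) (D := fun n => DD (S.T n).V)
      (Y := fun n ω l => toNC (gasket (S.δ n) (S.a n) (S.T n) l ω)) (Z := fun x l => G l x)
      (Cd := CdY S x0) (Φn := fun n ω => (0 : ℝ))
      (Φ := fun x => (0 : ℝ)) (M := 0)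
      hmeas hlim ?_ (fun n ω _ => by simp) ?_).2.2
    · rintro (i | m0) ε hε
      · exact cdX_tight hPIN hBDT ho hb hne hsc QQ.tight.1 QQ.tight.2.1 QQ.tight.2.2 i ε hε
      · obtain ⟨η, hη, hA⟩ := hSEP Ω ho hb hne hsc S x0 (1 / ((m0 : ℝ) + 1)) (by positivity) ε hε
        obtain ⟨c, hc⟩ := exists_one_div_le hη
        refine ⟨c, hA.mono fun n hn => (avg_fails_le fun ω _ hq => ?_).trans hn⟩
        have hq' : Near2 S n x0 (1 / ((m0 : ℝ) + 1)) (1 / ((c : ℝ) + 1)) ω := by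
          by_contra hcon
          exact hq hcon
        exact near2_mono hq' le_rfl hc
    · exact Eventually.of_forall fun x n ω _ _ _ _ => tendsto_const_nhds
  filter_upwards [key, h.sc.zero, h.sc.null] with x hx h2 h3
  obtain ⟨n, ω, hn, hω, hcd, hY⟩ := hx
  have hpre := pre_of ho hb hn hω hY h2.1 h3 (fun i => hcd (.inl i))
  have hsep : ∀ ρ : ℝ, 0 < ρ → ∃ η : ℝ, 0 < η ∧ ∀ᶠ j in atTop,
      ¬ Near2 S (n j) x0 ρ η (ω j) := by
    intro ρ hρ
    obtain ⟨m0, hm0⟩ := exists_one_div_le hρ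
    obtain ⟨c, hc⟩ := hcd (.inr m0)
    refine ⟨1 / ((c : ℝ) + 1), by positivity, hc.mono fun j hj hN => ?_⟩
    exact hj (near2_mono hN hm0 le_rfl)
  intro U U' hU hU' hne2 hz1 hz2 z hz hz'
  exact line_det hpre.good hsep hU hU' hne2 hz1 hz2 hz hz'

/-- the one-step estimate for the polygons of an approximation -/
theorem oneStepAll : NT.OneStepAll :=
  QQ.oneStepAll_of NT426.t1p (NT276.count_of NT878.vbc) fun _ hF =>
    NT814.US.usF_of (NT814.US.opx_of_opf (NT924.opf_of (NT733.op1_five NT613.vbp2))) hF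

/-- **SEP2** -/
theorem sep2 : SEP2 :=
  sep2_of (fun hΩ hb hne hsc S M hM => SW904.two_all oneStepAll hΩ hb hne hsc S M hM)
    QQ.bd QQ.tight.1.1 QQ.tight.1.2

/-- **LineDJ** -/
theorem lineDJ : LineDJ := line_of_sep NO801.Y.pin_bdt.1 NO801.Y.pin_bdt.2 sep2

/-- **DJ**: the closures of two distinct holes of the first carpet are disjoint. -/
theorem dj : SWR.DJ := dj_of_line NO801.Y.pin_bdt.1 NO801.Y.pin_bdt.2 lineDJ

end Vale.Agent.P155.SW802
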