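import Mathlib

/-!
# P155, SW, block (6b): a row of domains

Finitely many bounded domains are translated into a row in which neighbours touch: the boundary
of the union is connected.
-/

open Set Topology Metric

namespace Vale.Agent.P155.SW802

/-- the translate -/
def tr (c : ℂ) (A : Set ℂ) : Set ℂ := (fun z => z + c) '' A

theorem mem_tr {c z : ℂ} {A : Set ℂ} : z ∈ tr c A ↔ z - c ∈ A := by
  constructor
  · rintro ⟨w, hw, rfl⟩
    simpa using hw
  · intro h
    exact ⟨z - c, h, by simp⟩

theorem tr_eq_preimage (c : ℂ) (A : Set ℂ) : tr c A = (fun z => z - c) ⁻¹' A := by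
  ext z
  exact mem_tr

theorem isOpen_tr {c : ℂ} {A : Set ℂ} (h : IsOpen A) : IsOpen (tr c A) :=
  (Homeomorph.addRight c).isOpenMap A h

theorem frontier_tr (c : ℂ) (A : Set ℂ) : frontier (tr c A) = tr c (frontier A) :=
  ((Homeomorph.addRight c).image_frontier A).symm

theorem closure_tr (c : ℂ) (A : Set ℂ) : closure (tr c A) = tr c (closure A) :=
  ((Homeomorph.addRight c).image_closure A).symm

theorem isBounded_tr {c : ℂ} {A : Set ℂ} (h : Bornology.IsBounded A) :
    Bornology.IsBounded (tr c A) := by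
  have h1 : Bornology.IsBounded ((fun z => z + c) '' closure A) :=
    (h.isCompact_closure.image (by fun_prop)).isBounded
  exact h1.subset (image_mono subset_closure)

/-- the extreme points of an open set in the direction of the real axis -/
theorem ends {V : Set ℂ} (ho : IsOpen V) (hb : Bornology.IsBounded V) (hne : V.Nonempty) :
    ∃ p ∈ frontier V, ∃ q ∈ frontier V, ∀ z ∈ V, p.re < z.re ∧ z.re < q.re := by
  have hc : IsCompact (closure V) := hb.isCompact_closure
  obtain ⟨p, hp, hpm⟩ := hc.exists_isMinOn hne.closure Complex.continuous_re.continuousOn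
  obtain ⟨q, hq, hqm⟩ := hc.exists_isMaxOn hne.closure Complex.continuous_re.continuousOn
  have h1 : ∀ z ∈ V, ∃ w ∈ V, w.re < z.re := by
    intro z hz
    obtain ⟨ε, hε, hball⟩ := Metric.isOpen_iff.1 ho z hz
    refine ⟨z - (ε / 2 : ℝ), hball ?_, ?_⟩
    · rw [mem_ball, dist_eq_norm]
      simp only [sub_sub_cancel_left, norm_neg, Complex.norm_real, Real.norm_eq_abs]
      rw [abs_of_pos (by positivity)]
      linarith
    · simp only [Complex.sub_re, Complex.ofReal_re]
      linarith
  have h2 : ∀ z ∈ V, ∃ w ∈ V, z.re < w.re := by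
    intro z hz
    obtain ⟨ε, hε, hball⟩ := Metric.isOpen_iff.1 ho z hz
    refine ⟨z + (ε / 2 : ℝ), hball ?_, ?_⟩
    · rw [mem_ball, dist_eq_norm]
      simp only [add_sub_cancel_left, Complex.norm_real, Real.norm_eq_abs]
      rw [abs_of_pos (by positivity)]
      linarith
    · simp only [Complex.add_re, Complex.ofReal_re]
      linarith
  have hpz : ∀ z ∈ V, p.re < z.re := fun z hz => by
    obtain ⟨w, hw, hwz⟩ := h1 z hz
    exact lt_of_le_of_lt (hpm (subset_closure hw)) hwz
  have hqz : ∀ z ∈ V, z.re < q.re := fun z hz => by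
    obtain ⟨w, hw, hwz⟩ := h2 z hz
    exact lt_of_lt_of_le hwz (hqm (subset_closure hw))
  refine ⟨p, ?_, q, ?_, fun z hz => ⟨hpz z hz, hqz z hz⟩⟩
  · rw [ho.frontier_eq]
    exact ⟨hp, fun h => lt_irrefl _ (hpz p h)⟩
  · rw [ho.frontier_eq]
    exact ⟨hq, fun h => lt_irrefl _ (hqz q h)⟩

/-- **the row** -/
structure IsRow {m : ℕ} (V : Fin m → Set ℂ) (c : Fin m → ℂ) : Prop where
  opn : IsOpen (⋃ i, tr (c i) (V i))
  bdd : Bornology.IsBounded (⋃ i, tr (c i) (V i))
  disj : ∀ i j, i ≠ j → Disjoint (closure (tr (c i) (V i))) (tr (c j) (V j))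
  fr : frontier (⋃ i, tr (c i) (V i)) = ⋃ i, tr (c i) (frontier (V i))
  conn : IsConnected (frontier (⋃ i, tr (c i) (V i)))
  comp : ∀ i, ∀ z ∈ tr (c i) (V i),
    tr (c i) (V i) = connectedComponentIn (⋃ i, tr (c i) (V i)) z

theorem exists_row {m : ℕ} (hm : 0 < m) (V : Fin m → Set ℂ) (ho : ∀ i, IsOpen (V i))
    (hb : ∀ i, Bornology.IsBounded (V i)) (hne : ∀ i, (V i).Nonempty)
    (hpc : ∀ i, IsPreconnected (V i)) (hfc : ∀ i, IsConnected (frontier (V i))) :
    ∃ c : Fin m → ℂ, IsRow V c := by
  choose p hp q hq hpq using fun i => ends (ho i) (hb i) (hne i)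
  let e : ℕ → Fin m := fun n => if h : n < m then ⟨n, h⟩ else ⟨0, hm⟩
  have he : ∀ i : Fin m, e i = i := fun i => by simp [e, i.2]
  let C : ℕ → ℂ := fun n => Nat.rec 0 (fun n c => q (e n) + c - p (e (n + 1))) n
  have hC : ∀ n, C (n + 1) = q (e n) + C n - p (e (n + 1)) := fun n => rfl
  let L : ℕ → ℝ := fun n => (p (e n) + C n).re
  have hLq : ∀ n, L (n + 1) = (q (e n) + C n).re := fun n => by
    simp only [L, hC, Complex.add_re, Complex.sub_re]
    ring
  have hstrip : ∀ n, ∀ z ∈ tr (C n) (V (e n)), L n < z.re ∧ z.re < L (n + 1) := by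
    intro n z hz
    rw [mem_tr] at hz
    have := hpq _ _ hz
    rw [hLq]
    simp only [L, Complex.add_re, Complex.sub_re] at this ⊢
    constructor <;> linarith [this.1, this.2]
  have hmono : StrictMono L := strictMono_nat_of_lt_succ fun n => by
    obtain ⟨z, hz⟩ := hne (e n)
    have := hstrip n (z + C n) (mem_tr.2 (by simpa using hz))
    exact this.1.trans this.2
  have hclos : ∀ n, ∀ z ∈ closure (tr (C n) (V (e n))), L n ≤ z.re ∧ z.re ≤ L (n + 1) := by
    intro n
    have hcl : IsClosed {z : ℂ | L n ≤ z.re ∧ z.re ≤ L (n + 1)} :=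
      (isClosed_le continuous_const Complex.continuous_re).inter
        (isClosed_le Complex.continuous_re continuous_const)
    have hsub : tr (C n) (V (e n)) ⊆ {z : ℂ | L n ≤ z.re ∧ z.re ≤ L (n + 1)} :=
      fun w hw => ⟨(hstrip n w hw).1.le, (hstrip n w hw).2.le⟩
    exact fun z hz => closure_minimal hsub hcl hz
  let c : Fin m → ℂ := fun i => C i
  have hopen : ∀ i, IsOpen (tr (c i) (V i)) := fun i => isOpen_tr (ho i)
  have hdisj : ∀ i j, i ≠ j → Disjoint (closure (tr (c i) (V i))) (tr (c j) (V j)) := by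
    intro i j hij
    rw [disjoint_left]
    intro z hz hz'
    have h1 : z ∈ closure (tr (C i) (V (e i))) := by rw [he]; exact hz
    have h2 : z ∈ tr (C j) (V (e j)) := by rw [he]; exact hz'
    have h3 := hclos _ z h1
    have h4 := hstrip _ z h2
    rcases lt_or_gt_of_ne hij with h | h
    · have h5 : L ((i : ℕ) + 1) ≤ L j := hmono.monotone h
      linarith [h3.2, h4.1]
    · have h5 : L ((j : ℕ) + 1) ≤ L i := hmono.monotone h
      linarith [h3.1, h4.2]
  have hfr : frontier (⋃ i, tr (c i) (V i)) = ⋃ i, tr (c i) (frontier (V i)) := by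
    have hclU : closure (⋃ i, tr (c i) (V i)) = ⋃ i, closure (tr (c i) (V i)) :=
      closure_iUnion_of_finite _
    rw [(isOpen_iUnion hopen).frontier_eq, hclU]
    ext z
    simp only [mem_iUnion, Set.mem_sdiff, not_exists]
    constructor
    · rintro ⟨⟨i, hi⟩, h⟩
      refine ⟨i, ?_⟩
      rw [← frontier_tr, (hopen i).frontier_eq]
      exact ⟨hi, h i⟩
    · rintro ⟨i, hi⟩
      rw [← frontier_tr, (hopen i).frontier_eq] at hi
      refine ⟨⟨i, hi.1⟩, fun j hj => ?_⟩
      by_cases hij : i = j
      · subst hij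
        exact hi.2 hj
      · exact disjoint_left.1 (hdisj i j hij) hi.1 hj
  have hconn : IsConnected (⋃ i, tr (c i) (frontier (V i))) := by
    have h1 : IsConnected (⋃ n ∈ {n : ℕ | n < m}, tr (C n) (frontier (V (e n)))) := by
      refine IsConnected.biUnion_of_chain ⟨0, hm⟩ ?_ ?_ ?_
      · exact Set.ordConnected_Iio
      · intro n _
        exact (hfc (e n)).image _ (by fun_prop)
      · intro n hn hn'
        refine ⟨q (e n) + C n, ⟨q (e n), hq _, rfl⟩, ?_⟩
        rw [mem_tr]
        have : q (e n) + C n - C (Order.succ n) = p (e (n + 1)) := by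
          rw [Nat.succ_eq_succ, Nat.succ_eq_add_one, hC]
          ring
        rw [this]
        exact hp _
    have h2 : (⋃ n ∈ {n : ℕ | n < m}, tr (C n) (frontier (V (e n)))) =
        ⋃ i, tr (c i) (frontier (V i)) := by
      ext z
      simp only [mem_iUnion, mem_ofPred_eq, exists_prop]
      constructor
      · rintro ⟨n, hn, hz⟩
        refine ⟨⟨n, hn⟩, ?_⟩
        have : e n = ⟨n, hn⟩ := he ⟨n, hn⟩
        rw [this] at hz
        exact hz
      · rintro ⟨i, hz⟩
        refine ⟨i, i.2, ?_⟩
        rw [he]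
        exact hz
    rw [← h2]
    exact h1
  refine ⟨c, isOpen_iUnion hopen, ?_, hdisj, hfr, by rw [hfr]; exact hconn, ?_⟩
  · exact (Bornology.isBounded_iUnion).2 fun i => isBounded_tr (hb i)
  · intro i z hz
    refine Subset.antisymm ?_ ?_
    · exact ((hpc i).image _ (by fun_prop)).subset_connectedComponentIn hz
        (subset_iUnion (fun i => tr (c i) (V i)) i)
    · intro w hw
      by_contra hn
      have hpre : IsPreconnected (connectedComponentIn (⋃ i, tr (c i) (V i)) z) :=
        isPreconnected_connectedComponentIn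
      have hsub := connectedComponentIn_subset (⋃ i, tr (c i) (V i)) z
      have hv : IsOpen (closure (tr (c i) (V i)))ᶜ := isClosed_closure.isOpen_compl
      have hcov : connectedComponentIn (⋃ i, tr (c i) (V i)) z ⊆
          tr (c i) (V i) ∪ (closure (tr (c i) (V i)))ᶜ := by
        intro u hu
        obtain ⟨j, hj⟩ := mem_iUnion.1 (hsub hu)
        by_cases hij : i = j
        · subst hij
          exact Or.inl hj
        · exact Or.inr fun h => disjoint_left.1 (hdisj i j hij) h hj
      have hw2 : w ∈ (closure (tr (c i) (V i)))ᶜ := (hcov hw).resolve_left hn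
      obtain ⟨u, _, hu1, hu2⟩ := hpre _ _ (hopen i) hv hcov
        ⟨z, mem_connectedComponentIn (mem_iUnion.2 ⟨i, hz⟩), hz⟩ ⟨w, hw, hw2⟩
      exact hu2 (subset_closure hu1)

end Vale.Agent.P155.SW802
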